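import Vale.Agent.Lib.P162H.Link
import Vale.Agent.Lib.P162F.Main

/-!
# P162: the mixing time of the Thorp shuffle of `2 ^ d` cards, as a Markov chain on deck orders
-/

open Filter Asymptotics

namespace Vale.Agent.Results.P162.ThorpDeckChain

open Vale.Agent.P162H

/-- Q1, for `n = 2 ^ d`.  `(thorp n ^ t) D₀ D` is the probability that the deck order is `D` after
`t` Thorp shuffles starting from the deck order `D₀`.  Let `T d` be the mixing time `t_mix(2 ^ d)`: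
the least `t` such that the total variation distance between the law of the deck order after `t`
shuffles and the uniform law on the `(2 ^ d)!` deck orders is at most `1 / 4` (it exists and is the
same for every initial order `D₀`).  Then `c log n ≤ T d ≤ C log n` for every `d ≥ 1`, with absolute
constants `c, C > 0`, i.e. `t_mix(n) = Θ(log n)` as `n = 2 ^ d → ∞`.  Moreover
`C (log n + log (1 / ε))` shuffles are enough for distance `ε`, for every `0 < ε ≤ 1`. -/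
theorem result :
    ∃ (T : ℕ → ℕ) (c C : ℝ), 0 < c ∧ 0 < C ∧
      (∀ d : ℕ, 1 ≤ d → ∀ D₀ : Equiv.Perm (Fin (2 ^ d)),
        IsLeast {t : ℕ | (1 / 2 : ℝ) * ∑ D : Equiv.Perm (Fin (2 ^ d)),
          |(thorp (2 ^ d) ^ t) D₀ D - 1 / ((2 ^ d).factorial : ℝ)| ≤ 1 / 4} (T d)) ∧
      (∀ d : ℕ, 1 ≤ d →
        c * Real.log (2 ^ d) ≤ (T d : ℝ) ∧ (T d : ℝ) ≤ C * Real.log (2 ^ d)) ∧
      ((fun d : ℕ => (T d : ℝ)) =Θ[atTop] fun d : ℕ => Real.log (2 ^ d)) ∧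
      (∀ d : ℕ, 1 ≤ d → ∀ (D₀ : Equiv.Perm (Fin (2 ^ d))) (ε : ℝ), 0 < ε → ε ≤ 1 → ∀ t : ℕ,
        C * (Real.log (2 ^ d) + Real.log (1 / ε)) ≤ t →
          (1 / 2 : ℝ) * ∑ D : Equiv.Perm (Fin (2 ^ d)),
            |(thorp (2 ^ d) ^ t) D₀ D - 1 / ((2 ^ d).factorial : ℝ)| ≤ ε) := by
  obtain ⟨C1, hC1, h1⟩ := Vale.Agent.P162F.thorp_linear
  obtain ⟨c, C2, hc, hC2, h2⟩ := Vale.Agent.P162F.thorp_theta
  have hn : ∀ d : ℕ, 1 ≤ d → (2 : ℕ) ^ d = 2 * 2 ^ (d - 1) := by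
    intro d hd
    obtain ⟨e, rfl⟩ : ∃ e, d = e + 1 := ⟨d - 1, by omega⟩
    rw [Nat.add_sub_cancel, pow_succ']
  have hd : ∀ d : ℕ, 1 ≤ d → (2 : ℝ) ^ d = 2 * 2 ^ (d - 1) := by
    intro d hd
    exact_mod_cast hn d hd
  have hlog : ∀ d : ℕ, 0 ≤ Real.log ((2 : ℝ) ^ d) := fun d =>
    Real.log_nonneg (one_le_pow₀ (by norm_num))
  have hb : ∀ d : ℕ, 1 ≤ d → c * Real.log (2 ^ d) ≤ (Vale.Agent.P162.tmix (2 ^ (d - 1)) : ℝ) ∧
      (Vale.Agent.P162.tmix (2 ^ (d - 1)) : ℝ) ≤ max C1 C2 * Real.log (2 ^ d) := by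
    intro d hd1
    obtain ⟨-, h3, h4⟩ := h2 (d - 1)
    rw [← hd d hd1] at h3 h4
    exact ⟨h3, h4.trans (mul_le_mul_of_nonneg_right (le_max_right _ _) (hlog d))⟩
  refine ⟨fun d => Vale.Agent.P162.tmix (2 ^ (d - 1)), c, max C1 C2, hc,
    lt_max_of_lt_left hC1, fun d hd1 D₀ => ?_, hb, ⟨?_, ?_⟩, fun d hd1 D₀ ε hε hε1 t ht => ?_⟩
  · obtain ⟨hne, -, -⟩ := h2 (d - 1)
    simp only [dist_eq (hn d hd1)]
    exact ⟨Nat.sInf_mem hne, fun t ht => Nat.sInf_le ht⟩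
  · refine IsBigO.of_bound (max C1 C2) ?_
    filter_upwards [eventually_ge_atTop 1] with d hd1
    rw [Real.norm_of_nonneg (Nat.cast_nonneg _), Real.norm_of_nonneg (hlog d)]
    exact (hb d hd1).2
  · refine IsBigO.of_bound c⁻¹ ?_
    filter_upwards [eventually_ge_atTop 1] with d hd1
    rw [Real.norm_of_nonneg (Nat.cast_nonneg _), Real.norm_of_nonneg (hlog d),
      le_inv_mul_iff₀ hc]
    exact (hb d hd1).1
  · rw [dist_eq (hn d hd1)]
    refine h1 (d - 1) ε hε hε1 t (le_trans ?_ ht)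
    rw [← hd d hd1]
    refine mul_le_mul_of_nonneg_right (le_max_left _ _) (add_nonneg (hlog d) (Real.log_nonneg ?_))
    rw [le_div_iff₀ hε]
    linarith

end Vale.Agent.Results.P162.ThorpDeckChain
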