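import Vale.Agent.Lib.P162F.Main

/-!
# P162: the Thorp shuffle of `n = 2 ^ d` cards has mixing time of order `log n`
-/

namespace Vale.Agent.Results.P162.ThorpLogarithmic

open Vale.Agent.P162

/-- For a deck of `n = 2 * 2 ^ e` cards: after `t ≥ C (log n + log (1/ε))` Thorp shuffles the total
variation distance from uniform is at most `ε`; the mixing time is between `c log n` and
`C log n`. -/
theorem result :
    (∃ C : ℝ, 0 < C ∧ ∀ (e : ℕ) (ε : ℝ), 0 < ε → ε ≤ 1 → ∀ t : ℕ,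
      C * (Real.log (2 * 2 ^ e) + Real.log (1 / ε)) ≤ t →
      tvUnif (convPow (thorpLaw (2 ^ e)) t) ≤ ε) ∧
    (∃ c C : ℝ, 0 < c ∧ 0 < C ∧ ∀ e : ℕ,
      (∃ t : ℕ, tvUnif (convPow (thorpLaw (2 ^ e)) t) ≤ 1 / 4) ∧
      c * Real.log (2 * 2 ^ e) ≤ (tmix (2 ^ e) : ℝ) ∧
      (tmix (2 ^ e) : ℝ) ≤ C * Real.log (2 * 2 ^ e)) :=
  ⟨Vale.Agent.P162F.thorp_linear, Vale.Agent.P162F.thorp_theta⟩

end Vale.Agent.Results.P162.ThorpLogarithmic
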