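import Vale.Agent.Lib.P162G.Link

/-!
# P162: the mixing time of the Thorp shuffle of `2 ^ d` cards is of order `log (2 ^ d)`
-/

namespace Vale.Agent.Results.P162.ThorpOrder

open Vale.Agent.P162G

/-- For every `d ≥ 1` let `T d` be the least number `t` of shuffles of a deck of `n = 2 ^ d` cards
whose distance from uniform is at most `1 / 4`.  Then `T d` exists and is between `c log n` and
`C log n`; moreover `C (log n + log (1 / ε))` shuffles are enough for distance `ε`. -/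
theorem result :
    ∃ (c C : ℝ) (T : ℕ → ℕ), 0 < c ∧ 0 < C ∧
      (∀ d : ℕ, 1 ≤ d → IsLeast {t : ℕ | tvDist (2 ^ (d - 1)) t ≤ 1 / 4} (T d)) ∧
      (∀ d : ℕ, 1 ≤ d → c * Real.log (2 ^ d) ≤ T d ∧ T d ≤ C * Real.log (2 ^ d)) ∧
      (∀ (d : ℕ) (ε : ℝ) (t : ℕ), 1 ≤ d → 0 < ε → ε ≤ 1 →
        C * (Real.log (2 ^ d) + Real.log (1 / ε)) ≤ t → tvDist (2 ^ (d - 1)) t ≤ ε) := by
  obtain ⟨C1, hC1, h1⟩ := Vale.Agent.P162F.thorp_linear
  obtain ⟨c, C2, hc, hC2, h2⟩ := Vale.Agent.P162F.thorp_theta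
  have hd : ∀ d : ℕ, 1 ≤ d → (2 : ℝ) ^ d = 2 * 2 ^ (d - 1) := by
    intro d hd
    obtain ⟨e, rfl⟩ : ∃ e, d = e + 1 := ⟨d - 1, by omega⟩
    rw [Nat.add_sub_cancel, pow_succ']
  refine ⟨c, max C1 C2, fun d => Vale.Agent.P162.tmix (2 ^ (d - 1)), hc,
    lt_max_of_lt_left hC1, fun d _ => ?_, fun d hd1 => ?_, fun d ε t hd1 hε hε1 ht => ?_⟩
  · obtain ⟨hne, -, -⟩ := h2 (d - 1)
    simp only [tvDist_eq]
    exact ⟨Nat.sInf_mem hne, fun t ht => Nat.sInf_le ht⟩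
  · obtain ⟨-, h3, h4⟩ := h2 (d - 1)
    rw [hd d hd1]
    refine ⟨h3, h4.trans ?_⟩
    refine mul_le_mul_of_nonneg_right (le_max_right _ _) (Real.log_nonneg ?_)
    have : (1 : ℝ) ≤ 2 ^ (d - 1) := one_le_pow₀ (by norm_num)
    linarith
  · rw [tvDist_eq]
    refine h1 (d - 1) ε hε hε1 t (le_trans ?_ ht)
    rw [hd d hd1]
    refine mul_le_mul_of_nonneg_right (le_max_left _ _) (add_nonneg (Real.log_nonneg ?_)
      (Real.log_nonneg ?_))
    · have : (1 : ℝ) ≤ 2 ^ (d - 1) := one_le_pow₀ (by norm_num)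
      linarith
    · rw [le_div_iff₀ hε]
      linarith

end Vale.Agent.Results.P162.ThorpOrder
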