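import Vale.Agent.Lib.P162.Final
import Vale.Agent.Lib.P162.Lower

/-!
# P162: the Thorp shuffle of `n = 2 ^ d` cards mixes in `O((log n) ^ 2)` shuffles
-/

namespace Vale.Agent.Results.P162.ThorpSquare

open Vale.Agent.P162

/-- For a deck of `n = 2 * 2 ^ e` cards: after `t ≥ 600 log n (log n + log (1/ε))` Thorp shuffles
the total variation distance from uniform is at most `ε`; in particular the mixing time is at
most `2000 (log n) ^ 2`.  (It is at least `e`, by counting.) -/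
theorem result :
    (∀ (e : ℕ) (ε : ℝ), 0 < ε → ε ≤ 1 → ∀ t : ℕ,
      600 * Real.log (2 * 2 ^ e) * (Real.log (2 * 2 ^ e) + Real.log (1 / ε)) ≤ t →
      tvUnif (convPow (thorpLaw (2 ^ e)) t) ≤ ε) ∧
    (∀ e : ℕ, (∃ t : ℕ, tvUnif (convPow (thorpLaw (2 ^ e)) t) ≤ 1 / 4) ∧
      (e : ℝ) ≤ (tmix (2 ^ e) : ℝ) ∧
      (tmix (2 ^ e) : ℝ) ≤ 2000 * Real.log (2 * 2 ^ e) ^ 2) := by
  refine ⟨fun e ε hε hε1 t ht => thorp_tv e ε hε hε1 t ht, fun e => ?_⟩
  obtain ⟨hne, hle⟩ := thorp_tmix e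
  refine ⟨hne, ?_, hle⟩
  exact_mod_cast thorp_lower e _ (Nat.sInf_mem hne)

end Vale.Agent.Results.P162.ThorpSquare
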